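import Vale.Agent.P354RC.Alg

/-!
Covariance of the connection and of the curvature.
-/

set_option maxSynthPendingDepth 3

open scoped ContDiff
open Set Filter Topology

namespace Vale.Agent.P354RC

open Vale.Agent.P354n (R4 IsConn Riem)
open Vale.Agent.P354R

variable {g g' : R4 → R4 → R4 → ℝ} {h : R4 → B2} {D D' : Set R4} {y : R4} {f : R4 → R4}

/-- The pull back. -/
noncomputable def pb (h : R4 → B2) (f : R4 → R4) (y : R4) : B2 :=
  (((h (f y)).comp (fderiv ℝ f y)).flip.comp (fderiv ℝ f y)).flip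

theorem pb_ap (a b : R4) : pb h f y a b = h (f y) (fderiv ℝ f y a) (fderiv ℝ f y b) := rfl

theorem pb_cd (hh : ContDiffAt ℝ ∞ h (f y)) (hf : ContDiffAt ℝ ∞ f y) :
    ContDiffAt ℝ ∞ (pb h f) y :=
  at_flip ((at_flip ((hh.comp y hf).clm_comp (at_fd hf))).clm_comp (at_fd hf))

theorem fd_comp {F : Type} [NormedAddCommGroup F] [NormedSpace ℝ F] {c : R4 → F}
    (hc : ContDiffAt ℝ ∞ c (f y)) (hf : ContDiffAt ℝ ∞ f y) (a : R4) :
    fderiv ℝ (fun z => c (f z)) y a = fderiv ℝ c (f y) (fderiv ℝ f y a) := by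
  rw [fderiv_fun_comp y (at_df hc) (at_df hf)]; rfl

theorem fd_pb (hh : ContDiffAt ℝ ∞ h (f y)) (hf : ContDiffAt ℝ ∞ f y) (a b c : R4) :
    fderiv ℝ (pb h f) y a b c =
      fderiv ℝ h (f y) (fderiv ℝ f y a) (fderiv ℝ f y b) (fderiv ℝ f y c) +
      h (f y) (fderiv ℝ (fderiv ℝ f) y a b) (fderiv ℝ f y c) +
      h (f y) (fderiv ℝ f y b) (fderiv ℝ (fderiv ℝ f) y a c) := by
  have k := pb_cd hh hf
  have k1 : ContDiffAt ℝ ∞ (fun z => h (f z)) y := hh.comp y hf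
  have k2 := fun b => (at_fd hf).clm_apply (contDiffAt_const (c := b))
  rw [← fd_ap0 k, ← fd_ap0 (k.clm_apply contDiffAt_const)]
  simp only [pb_ap]
  rw [fd_ap (k1.clm_apply (k2 b)) (k2 c), fd_ap k1 (k2 b), fd_comp hh hf, fd_ap0 (at_fd hf),
    fd_ap0 (at_fd hf)]
  rfl

theorem sym2 {F : Type} [NormedAddCommGroup F] [NormedSpace ℝ F] {c : R4 → F}
    (hc : ContDiffAt ℝ ∞ c y) (a b : R4) :
    fderiv ℝ (fderiv ℝ c) y a b = fderiv ℝ (fderiv ℝ c) y b a :=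
  hc.isSymmSndFDerivAt (by rw [minSmoothness_of_isRCLikeNormedField]; exact ENat.LEInfty.out) a b

theorem Rp.dsym (r : Rp g h D) (hy : y ∈ D) (a b c : R4) :
    fderiv ℝ h y a b c = fderiv ℝ h y a c b := by
  rw [← r.der hy, ← r.der hy]
  unfold P354n.deriv
  refine EventuallyEq.lineDeriv_eq ?_
  filter_upwards [r.op.mem_nhds hy] with z hz using r.met.symm z hz b c

section
variable (p : Pull f g' D' g D) (r : Rp g h D)
include p

theorem p_at (hy : y ∈ D') : ContDiffAt ℝ ∞ f y := p.smooth.contDiffAt (p.open'.mem_nhds hy)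

include r

theorem rp_pb : Rp g' (pb h f) D' :=
  ⟨p.open', fun y hy a b => (p.eq y hy a b).trans (r.eq _ (p.maps hy) _ _),
    fun _ hy => (pb_cd (r.at (p.maps hy)) (p_at p hy)).contDiffWithinAt,
    fun _ hy _ _ => r.symm _ (p.maps hy) _ _, fun y hy a ha => p.inj y hy (by
      rw [map_zero]
      refine r.nd _ (p.maps hy) _ fun b => ?_
      obtain ⟨c, rfl⟩ := surj_of_inj (p.inj y hy) b
      exact ha c)⟩

theorem C1_pb (hy : y ∈ D') (a b c : R4) : C1 (pb h f) y a b c =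
    C1 h (f y) (fderiv ℝ f y a) (fderiv ℝ f y b) (fderiv ℝ f y c) +
      h (f y) (fderiv ℝ (fderiv ℝ f) y a b) (fderiv ℝ f y c) := by
  have k := p_at p hy
  simp only [C1_ap, fd_pb (r.at (p.maps hy)) k]
  rw [sym2 k b a, sym2 k c a, sym2 k c b, r.symm _ (p.maps hy) (fderiv ℝ f y b),
    r.symm _ (p.maps hy) (fderiv ℝ f y a)]
  ring

theorem Gm_pb (hy : y ∈ D') (a b : R4) : fderiv ℝ f y (Gm (pb h f) y a b) =
    Gm h (f y) (fderiv ℝ f y a) (fderiv ℝ f y b) + fderiv ℝ (fderiv ℝ f) y a b :=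
  r.ext (p.maps hy) fun c => by
    obtain ⟨c, rfl⟩ := surj_of_inj (p.inj y hy) c
    rw [← pb_ap, (rp_pb p r).gm hy, C1_pb p r hy, map_add, add_apply, r.gm (p.maps hy)]

theorem dC_pb (hy : y ∈ D') (a b c d : R4) : dC (pb h f) y a b c d =
    dC h (f y) (fderiv ℝ f y a) (fderiv ℝ f y b) (fderiv ℝ f y c) (fderiv ℝ f y d) +
      C1 h (f y) (fderiv ℝ (fderiv ℝ f) y a b) (fderiv ℝ f y c) (fderiv ℝ f y d) +
      C1 h (f y) (fderiv ℝ f y b) (fderiv ℝ (fderiv ℝ f) y a c) (fderiv ℝ f y d) +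
      C1 h (f y) (fderiv ℝ f y b) (fderiv ℝ f y c) (fderiv ℝ (fderiv ℝ f) y a d) +
      fderiv ℝ h (f y) (fderiv ℝ f y a) (fderiv ℝ (fderiv ℝ f) y b c) (fderiv ℝ f y d) +
      h (f y) (fderiv ℝ (fderiv ℝ (fderiv ℝ f)) y a b c) (fderiv ℝ f y d) +
      h (f y) (fderiv ℝ (fderiv ℝ f) y b c) (fderiv ℝ (fderiv ℝ f) y a d) := by
  have k := p_at p hy
  have hh := r.at (p.maps hy)
  have k0 : ContDiffAt ℝ ∞ (fun z => h (f z)) y := hh.comp y k
  have k1 : ContDiffAt ℝ ∞ (fun z => fderiv ℝ h (f z)) y := (at_fd hh).comp y k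
  have k2 := fun b => (at_fd k).clm_apply (contDiffAt_const (c := b))
  have k3 := (at_fd (at_fd k)).clm_apply (contDiffAt_const (c := b))
  have k4 := k3.clm_apply (contDiffAt_const (c := c))
  have t := fun b c d => ((k1.clm_apply (k2 b)).clm_apply (k2 c)).clm_apply (k2 d)
  have e : ∀ b c d, fderiv ℝ (fun z => fderiv ℝ h (f z) (fderiv ℝ f z b) (fderiv ℝ f z c)
      (fderiv ℝ f z d)) y a = _ := fun b c d => by
    rw [fd_ap ((k1.clm_apply (k2 b)).clm_apply (k2 c)) (k2 d), fd_ap (k1.clm_apply (k2 b)) (k2 c),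
      fd_ap k1 (k2 b), fd_comp (at_fd hh) k, fd_ap0 (at_fd k), fd_ap0 (at_fd k), fd_ap0 (at_fd k)]
  have e' := fd_ap (k0.clm_apply k4) (k2 d) a
  rw [fd_ap k0 k4, fd_comp hh k, fd_ap0 k3, fd_ap0 (at_fd (at_fd k)), fd_ap0 (at_fd k)] at e'
  have s := (((((at_df (t b c d)).hasFDerivAt.add (at_df (t c b d)).hasFDerivAt).sub
    (at_df (t d b c)).hasFDerivAt).mul_const (2 : ℝ)⁻¹).add
    (at_df ((k0.clm_apply k4).clm_apply (k2 d))).hasFDerivAt).congr_of_eventuallyEq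
    (f₁ := fun z => C1 (pb h f) z b c d) (by
      filter_upwards [p.open'.mem_nhds hy] with z hz
      rw [C1_pb p r hz, C1_ap, div_eq_mul_inv]
      rfl)
  rw [← (fd_C1 ((rp_pb p r).at hy) a b c d).2, s.fderiv]
  simp only [add_apply, smul_apply, sub_apply, smul_eq_mul, e, e', dC, C1_ap]
  ring

theorem Rm_pb (hy : y ∈ D') (a b c d : R4) : Rm (pb h f) y a b c d =
    Rm h (f y) (fderiv ℝ f y a) (fderiv ℝ f y b) (fderiv ℝ f y c) (fderiv ℝ f y d) := by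
  have k := p_at p hy
  have m := p.maps hy
  simp only [Rm, dC_pb p r hy, pb_ap, Gm_pb p r hy, map_add, add_apply]
  rw [sym2 k b a, sym2 (at_fd k) b a, r.symm _ m (fderiv ℝ (fderiv ℝ f) y b c) (Gm ..),
    r.symm _ m (fderiv ℝ (fderiv ℝ f) y a c) (Gm ..), r.gm m _ _ (fderiv ℝ (fderiv ℝ f) y a d),
    r.gm m _ _ (fderiv ℝ (fderiv ℝ f) y b d), r.gm m _ _ (fderiv ℝ (fderiv ℝ f) y a c),
    r.gm m _ _ (fderiv ℝ (fderiv ℝ f) y b c)]
  simp only [C1_ap]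
  rw [r.dsym m _ (fderiv ℝ f y d) (fderiv ℝ (fderiv ℝ f) y b c),
    r.dsym m _ (fderiv ℝ f y d) (fderiv ℝ (fderiv ℝ f) y a c),
    r.dsym m (fderiv ℝ f y d) (fderiv ℝ f y a), r.dsym m (fderiv ℝ f y d) (fderiv ℝ f y b)]
  ring

theorem Ric_pb (hy : y ∈ D') (b c : R4) :
    Ric (pb h f) y b c = Ric h (f y) (fderiv ℝ f y b) (fderiv ℝ f y c) := by
  rw [← r.ric (p.maps hy) (E := fun i => fderiv ℝ f y (bs i))
    (E' := fun i => fderiv ℝ f y ((pb h f y).inverse (cv i))) ((rp_pb p r).dual hy), Ric]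
  simp only [Rm_pb p r hy]

end

/-- **K2.** -/
theorem k2 : K2 := by
  refine ⟨fun f g' D' g D p => ?_, fun f g' D' g D p v => ?_, fun f g' D' g D p s v => ?_,
    fun g D D0 o o0 s c m v => ?_, fun f g' D' g D p y hy a b c => ?_⟩
  · obtain ⟨h, r⟩ := rp_of_met p.isOpen p.met
    exact (rp_pb p r).met
  · obtain ⟨h, r⟩ := rp_of_met p.isOpen p.met
    exact (rp_pb p r).vac.2 fun y hy b c => (Ric_pb p r hy b c).trans (r.vac.1 v _ (p.maps hy) _ _)
  · obtain ⟨h, r⟩ := rp_of_met p.isOpen p.met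
    refine r.vac.2 fun x hx b c => ?_
    obtain ⟨y, hy, rfl⟩ := s hx
    obtain ⟨b, rfl⟩ := surj_of_inj (p.inj y hy) b
    obtain ⟨c, rfl⟩ := surj_of_inj (p.inj y hy) c
    exact (Ric_pb p r hy b c).symm.trans ((rp_pb p r).vac.1 v y hy b c)
  · obtain ⟨h, r⟩ := rp_of_met o m
    refine r.vac.2 fun x hx a b => ?_
    have := (r.ric_cd hx a b).continuousAt.continuousWithinAt.mem_closure (c hx) (t := {0})
      fun z hz => (r.mono o0 s).vac.1 v z hz a b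
    simpa using this
  · obtain ⟨h, r⟩ := rp_of_met p.isOpen p.met
    rw [(rp_pb p r).chr hy, r.chr (p.maps hy), C1_pb p r hy, r.eq _ (p.maps hy),
      fd_ap0 (at_fd (p_at p hy))]

end Vale.Agent.P354RC
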