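import Vale.Agent.P354R.Defs

/-!
Connection and curvature of a smooth field h of bilinear forms, written with Frechet derivatives.
-/

set_option maxSynthPendingDepth 3

open scoped ContDiff
open Set Filter Topology

namespace Vale.Agent.P354RC

open Vale.Agent.P354n (R4 IsConn Riem)
open Vale.Agent.P354R

/-- Bilinear forms. -/
abbrev B2 : Type := R4 →L[ℝ] R4 →L[ℝ] ℝ

/-- The coordinate vectors and the coordinates. -/
def bs : Fin 4 → R4 := ![(1, 0, 0, 0), (0, 1, 0, 0), (0, 0, 1, 0), (0, 0, 0, 1)]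
noncomputable def cv : Fin 4 → R4 →L[ℝ] ℝ :=
  ![.fst ℝ ℝ _, (ContinuousLinearMap.fst ℝ ℝ _).comp (.snd ℝ ℝ _),
    ((ContinuousLinearMap.fst ℝ ℝ ℝ).comp (.snd ℝ ℝ _)).comp (.snd ℝ ℝ _),
    ((ContinuousLinearMap.snd ℝ ℝ ℝ).comp (.snd ℝ ℝ _)).comp (.snd ℝ ℝ _)]

theorem cv_bs (i j : Fin 4) : cv j (bs i) = if i = j then 1 else 0 := by
  fin_cases i <;> fin_cases j <;> simp [cv, bs]

theorem sum_bs (a : R4) : ∑ i, cv i a • bs i = a := by simp [Fin.sum_univ_four, cv, bs]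

theorem rank4 : Module.finrank ℝ R4 = 4 := by simp

theorem inv_of_inj {h : B2} (hi : ∀ a, (∀ b, h a b = 0) → a = 0) : h.IsInvertible :=
  ⟨(LinearMap.linearEquivOfInjective (h : R4 →ₗ[ℝ] R4 →L[ℝ] ℝ)
    ((injective_iff_map_eq_zero _).2 fun a ha => hi a fun b => by
      rw [show h a = 0 from ha]; rfl)
    (by rw [← LinearMap.toContinuousLinearMap.finrank_eq]; simp)).toContinuousLinearEquiv, rfl⟩

theorem surj_of_inj {F : R4 →L[ℝ] R4} (h : Function.Injective F) : Function.Surjective F :=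
  LinearMap.injective_iff_surjective (f := (F : R4 →ₗ[ℝ] R4)).1 h

/-- Dual bases. -/
def Dual (h : B2) (E E' : Fin 4 → R4) : Prop := ∀ i j, h (E i) (E' j) = if i = j then 1 else 0

theorem Dual.exp {h : B2} {E E' : Fin 4 → R4} (d : Dual h E E') (v : R4) :
    v = ∑ j, h v (E' j) • E j := by
  have a : ∀ (c : Fin 4 → ℝ) k, h (∑ j, c j • E j) (E' k) = c k := fun c k => by
    simp [d _ k]
  have li : LinearIndependent ℝ E := Fintype.linearIndependent_iff.2 fun c hc k => by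
    rw [← a c k, hc]; simp
  obtain ⟨c, rfl⟩ := (Submodule.mem_span_range_iff_exists_fun ℝ).1
    ((li.span_eq_top_of_card_eq_finrank (by simp)).ge (Submodule.mem_top (x := v)))
  simp only [a]

theorem Dual.tr {h : B2} (hs : ∀ a b, h a b = h b a) {E E' F F' : Fin 4 → R4} (d : Dual h E E')
    (d' : Dual h F F') (B : R4 →ₗ[ℝ] R4 →ₗ[ℝ] ℝ) : ∑ i, B (F i) (F' i) = ∑ i, B (E i) (E' i) := by
  have d2 : Dual h F' F := fun i j => by rw [hs, d' j i]; simp only [eq_comm]
  calc ∑ i, B (F i) (F' i) = ∑ i, B (∑ j, h (F i) (E' j) • E j) (F' i) :=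
        Finset.sum_congr rfl fun i _ => by rw [← d.exp]
    _ = ∑ j, B (E j) (∑ i, h (E' j) (F i) • F' i) := by
        simp only [map_sum, map_smul, LinearMap.sum_apply, LinearMap.smul_apply]
        rw [Finset.sum_comm]
        simp only [hs (E' _)]
    _ = _ := Finset.sum_congr rfl fun j _ => by rw [← d2.exp]

section
variable (h : R4 → B2) (y : R4)

/-- Christoffel symbols of the first kind. -/
noncomputable def C1 (a b : R4) : R4 →L[ℝ] ℝ :=
  (1 / 2 : ℝ) • (fderiv ℝ h y a b + fderiv ℝ h y b a - ((fderiv ℝ h y).flip a).flip b)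

/-- The connection. -/
noncomputable def Gm (a b : R4) : R4 := (h y).inverse (C1 h y a b)

/-- The derivative of the Christoffel symbols of the first kind. -/
noncomputable def dC (a b c d : R4) : ℝ :=
  (fderiv ℝ (fderiv ℝ h) y a b c d + fderiv ℝ (fderiv ℝ h) y a c b d -
    fderiv ℝ (fderiv ℝ h) y a d b c) / 2

/-- The curvature. -/
noncomputable def Rm (a b c d : R4) : ℝ :=
  dC h y a b c d - dC h y b a c d - h y (Gm h y b c) (Gm h y a d) + h y (Gm h y a c) (Gm h y b d)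

/-- The Ricci curvature. -/
noncomputable def Ric (b c : R4) : ℝ := ∑ i, Rm h y (bs i) b c ((h y).inverse (cv i))

theorem C1_ap (a b c : R4) : C1 h y a b c =
    (fderiv ℝ h y a b c + fderiv ℝ h y b a c - fderiv ℝ h y c a b) / 2 := by
  simp only [C1, smul_apply, sub_apply, add_apply, ContinuousLinearMap.flip_apply, smul_eq_mul]
  ring

theorem Gm_add1 (a a' b : R4) : Gm h y (a + a') b = Gm h y a b + Gm h y a' b := by
  rw [Gm, Gm, Gm, ← map_add]; congr 1
  refine ContinuousLinearMap.ext fun c => ?_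
  simp only [C1_ap, map_add, add_apply]; ring
theorem Gm_add2 (a b b' : R4) : Gm h y a (b + b') = Gm h y a b + Gm h y a b' := by
  rw [Gm, Gm, Gm, ← map_add]; congr 1
  refine ContinuousLinearMap.ext fun c => ?_
  simp only [C1_ap, map_add, add_apply]; ring
theorem Gm_smul1 (r : ℝ) (a b : R4) : Gm h y (r • a) b = r • Gm h y a b := by
  rw [Gm, Gm, ← map_smul]; congr 1
  refine ContinuousLinearMap.ext fun c => ?_
  simp only [C1_ap, map_smul, smul_apply, smul_eq_mul]; ring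
theorem Gm_smul2 (r : ℝ) (a b : R4) : Gm h y a (r • b) = r • Gm h y a b := by
  rw [Gm, Gm, ← map_smul]; congr 1
  refine ContinuousLinearMap.ext fun c => ?_
  simp only [C1_ap, map_smul, smul_apply, smul_eq_mul]; ring

/-- The curvature as a bilinear form in the first and the last vector. -/
noncomputable def RmL (b c : R4) : R4 →ₗ[ℝ] R4 →ₗ[ℝ] ℝ :=
  LinearMap.mk₂ ℝ (fun a d => Rm h y a b c d)
    (fun _ _ _ => by simp only [Rm, dC, Gm_add1, map_add, add_apply]; ring)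
    (fun _ _ _ => by simp only [Rm, dC, Gm_smul1, map_smul, smul_apply, smul_eq_mul]; ring)
    (fun _ _ _ => by simp only [Rm, dC, Gm_add2, map_add, add_apply]; ring)
    (fun _ _ _ => by simp only [Rm, dC, Gm_smul2, map_smul, smul_apply, smul_eq_mul]; ring)

end

/-- On the open set D the field g is given by the smooth field h of bilinear forms. -/
structure Rp (g : R4 → R4 → R4 → ℝ) (h : R4 → B2) (D : Set R4) : Prop where
  op : IsOpen D
  eq : ∀ y ∈ D, ∀ a b, g y a b = h y a b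
  sm : ContDiffOn ℝ ∞ h D
  symm : ∀ y ∈ D, ∀ a b, h y a b = h y b a
  nd : ∀ y ∈ D, ∀ a, (∀ b, h y a b = 0) → a = 0

variable {g : R4 → R4 → R4 → ℝ} {h : R4 → B2} {D : Set R4} {y : R4}

theorem rp_of_met (hD : IsOpen D) (m : Met g D) : ∃ h, Rp g h D := by
  have e : ∀ y ∈ D, ∀ a b, g y a b = (∑ i, ∑ j, g y (bs i) (bs j) • (cv i).smulRight (cv j)) a b :=
    fun y hy a b => by
      have l : ∀ a b, g y a b = ∑ i, cv i b * g y a (bs i) := fun a b => by
        conv_lhs => rw [← sum_bs b]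
        exact (map_sum (IsLinearMap.mk' _ (m.lin y hy a)) _ _).trans
          (Finset.sum_congr rfl fun i _ => (m.lin y hy a).map_smul _ _)
      simp only [sum_apply, smul_apply, ContinuousLinearMap.smulRight_apply, smul_eq_mul]
      rw [m.symm y hy, l]
      refine Finset.sum_congr rfl fun i _ => ?_
      rw [m.symm y hy, l, Finset.mul_sum]
      exact Finset.sum_congr rfl fun j _ => by ring
  exact ⟨_, hD, e, ContDiffOn.sum fun i _ => ContDiffOn.sum fun j _ =>
    (m.smooth _ _).smul contDiffOn_const, fun y hy a b => by rw [← e y hy, ← e y hy, m.symm y hy],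
    fun y hy a ha => m.nondeg y hy a fun b => (e y hy a b).trans (ha b)⟩

theorem Rp.met (r : Rp g h D) : Met g D :=
  ⟨fun y hy a => ⟨fun b c => by simp only [r.eq y hy, map_add],
      fun s b => by simp only [r.eq y hy, map_smul]⟩,
    fun y hy a b => by rw [r.eq y hy, r.eq y hy, r.symm y hy],
    fun y hy a ha => r.nd y hy a fun b => (r.eq y hy a b).symm.trans (ha b),
    fun a b => ((r.sm.clm_apply contDiffOn_const).clm_apply contDiffOn_const).congr
      fun y hy => r.eq y hy a b⟩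

theorem Rp.mono (r : Rp g h D) {D0 : Set R4} (h0 : IsOpen D0) (hs : D0 ⊆ D) : Rp g h D0 :=
  ⟨h0, fun y hy => r.eq y (hs hy), r.sm.mono hs, fun y hy => r.symm y (hs hy),
    fun y hy => r.nd y (hs hy)⟩

theorem Rp.at (r : Rp g h D) (hy : y ∈ D) : ContDiffAt ℝ ∞ h y := r.sm.contDiffAt (r.op.mem_nhds hy)

theorem at_fd {F : Type} [NormedAddCommGroup F] [NormedSpace ℝ F] {f : R4 → F}
    (hf : ContDiffAt ℝ ∞ f y) : ContDiffAt ℝ ∞ (fderiv ℝ f) y := hf.fderiv_right (by simp)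

theorem at_df {F : Type} [NormedAddCommGroup F] [NormedSpace ℝ F] {f : R4 → F}
    (hf : ContDiffAt ℝ ∞ f y) : DifferentiableAt ℝ f y := hf.differentiableAt (by simp)

theorem fd_ap {F F' : Type} [NormedAddCommGroup F] [NormedSpace ℝ F] [NormedAddCommGroup F']
    [NormedSpace ℝ F'] {c : R4 → F →L[ℝ] F'} {u : R4 → F} (hc : ContDiffAt ℝ ∞ c y)
    (hu : ContDiffAt ℝ ∞ u y) (a : R4) :
    fderiv ℝ (fun z => c z (u z)) y a = fderiv ℝ c y a (u y) + c y (fderiv ℝ u y a) := by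
  rw [fderiv_clm_apply (at_df hc) (at_df hu), add_comm]; rfl

theorem fd_ap0 {F F' : Type} [NormedAddCommGroup F] [NormedSpace ℝ F] [NormedAddCommGroup F']
    [NormedSpace ℝ F'] {c : R4 → F →L[ℝ] F'} (hc : ContDiffAt ℝ ∞ c y) (u : F) (a : R4) :
    fderiv ℝ (fun z => c z u) y a = fderiv ℝ c y a u := by
  rw [fd_ap hc contDiffAt_const]; simp

theorem der_eq {φ ψ : R4 → ℝ} (e : φ =ᶠ[𝓝 y] ψ) (hψ : ContDiffAt ℝ ∞ ψ y) (a : R4) :
    P354n.deriv φ y a = fderiv ℝ ψ y a := by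
  unfold P354n.deriv
  rw [e.lineDeriv_eq, (at_df hψ).lineDeriv_eq_fderiv]

theorem Rp.der (r : Rp g h D) (hy : y ∈ D) (a b c : R4) :
    P354n.deriv (fun z => g z b c) y a = fderiv ℝ h y a b c := by
  rw [der_eq (ψ := fun z => h z b c) (by filter_upwards [r.op.mem_nhds hy] with z hz using r.eq z hz b c)
    (((r.at hy).clm_apply contDiffAt_const).clm_apply contDiffAt_const),
    fd_ap0 ((r.at hy).clm_apply contDiffAt_const), fd_ap0 (r.at hy)]

theorem Rp.chr (r : Rp g h D) (hy : y ∈ D) (a b c : R4) : chr g y a b c = C1 h y a b c := by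
  simp only [P354R.chr, r.der hy, C1_ap]

theorem Rp.inv (r : Rp g h D) (hy : y ∈ D) (l : R4 →L[ℝ] ℝ) : h y ((h y).inverse l) = l :=
  (inv_of_inj (r.nd y hy)).self_apply_inverse l

theorem Rp.gm (r : Rp g h D) (hy : y ∈ D) (a b c : R4) : h y (Gm h y a b) c = C1 h y a b c := by
  rw [Gm, r.inv hy]

theorem Rp.ext (r : Rp g h D) (hy : y ∈ D) {u v : R4} (e : ∀ c, h y u c = h y v c) : u = v :=
  sub_eq_zero.1 (r.nd y hy _ fun c => by rw [map_sub, sub_apply, e, sub_self])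

theorem Rp.conn (r : Rp g h D) (hy : y ∈ D) {G : R4 → R4 → R4 → R4} :
    IsConn g G y ↔ ∀ a b, G y a b = Gm h y a b := by
  simp only [IsConn, r.der hy, r.eq y hy]
  refine forall₂_congr fun a b => ⟨fun k => r.ext hy fun c => ?_, fun k c => ?_⟩
  · rw [r.gm hy, C1_ap, ← k]; ring
  · rw [k, r.gm hy, C1_ap]; ring

theorem fd_C1 (hh : ContDiffAt ℝ ∞ h y) (a b c d : R4) :
    ContDiffAt ℝ ∞ (fun z => C1 h z b c d) y ∧
      fderiv ℝ (fun z => C1 h z b c d) y a = dC h y a b c d := by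
  have k := at_fd hh
  have k3 : ∀ b c d, ContDiffAt ℝ ∞ (fun z => fderiv ℝ h z b c d) y := fun b c d =>
    ((k.clm_apply contDiffAt_const).clm_apply contDiffAt_const).clm_apply contDiffAt_const
  have e3 : ∀ b c d, fderiv ℝ (fun z => fderiv ℝ h z b c d) y a =
      fderiv ℝ (fderiv ℝ h) y a b c d := fun b c d => by
    rw [fd_ap0 ((k.clm_apply contDiffAt_const).clm_apply contDiffAt_const),
      fd_ap0 (k.clm_apply contDiffAt_const), fd_ap0 k]
  simp only [C1_ap, dC, ← e3]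
  refine ⟨(((k3 _ _ _).add (k3 _ _ _)).sub (k3 _ _ _)).div_const _, ?_⟩
  have := ((((at_df (k3 b c d)).hasFDerivAt.add (at_df (k3 c b d)).hasFDerivAt).sub
    (at_df (k3 d b c)).hasFDerivAt).mul_const (2 : ℝ)⁻¹).fderiv
  simp only [div_eq_mul_inv]
  rw [show fderiv ℝ (fun z => (fderiv ℝ h z b c d + fderiv ℝ h z c b d - fderiv ℝ h z d b c) * 2⁻¹) y
    = _ from this]
  simp only [smul_apply, sub_apply, add_apply, smul_eq_mul, mul_comm]

theorem Rp.riem (r : Rp g h D) (hy : y ∈ D) {G : R4 → R4 → R4 → R4} (hG : ∀ z ∈ D, IsConn g G z)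
    (a b c d : R4) : Riem g G y a b c d = Rm h y a b c d := by
  have e : ∀ a b, P354n.deriv (fun z => g z (G z b c) d) y a = dC h y a b c d := fun a b => by
    rw [der_eq (ψ := fun z => C1 h z b c d) ?_ (fd_C1 (r.at hy) a b c d).1, (fd_C1 (r.at hy) ..).2]
    filter_upwards [r.op.mem_nhds hy] with z hz
    rw [r.eq z hz, (r.conn hz).1 (hG z hz), r.gm hz]
  simp only [Riem, Rm, e, r.eq y hy, (r.conn hy).1 (hG y hy)]

theorem Rp.dual (r : Rp g h D) (hy : y ∈ D) : Dual (h y) bs fun i => (h y).inverse (cv i) :=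
  fun i j => by rw [r.symm y hy, r.inv hy, cv_bs]

theorem Rp.ric (r : Rp g h D) (hy : y ∈ D) {E E' : Fin 4 → R4} (d : Dual (h y) E E') (b c : R4) :
    ∑ i, Rm h y (E i) b c (E' i) = Ric h y b c := (r.dual hy).tr (r.symm y hy) d (RmL h y b c)

theorem Rp.vac (r : Rp g h D) : Vac g D ↔ ∀ y ∈ D, ∀ b c, Ric h y b c = 0 := by
  refine ⟨fun ⟨G, hG⟩ y hy b c => ?_, fun k => ⟨Gm h, fun y hy => ⟨(r.conn hy).2 fun _ _ => rfl, bs,
    fun i => (h y).inverse (cv i), fun i j => (r.eq y hy ..).trans (r.dual hy i j), fun b c => ?_⟩⟩⟩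
  · obtain ⟨-, E, E', k1, k2⟩ := hG y hy
    rw [← r.ric hy (E := E) (E' := E') fun i j => (r.eq y hy ..).symm.trans (k1 i j), ← k2 b c]
    simp only [r.riem hy fun z hz => (hG z hz).1]
  · simp only [r.riem hy fun z hz => (r.conn hz).2 fun _ _ => rfl]
    exact k y hy b c

theorem at_flip {G : Type} [NormedAddCommGroup G] [NormedSpace ℝ G] {c : R4 → R4 →L[ℝ] R4 →L[ℝ] G}
    (hc : ContDiffAt ℝ ∞ c y) : ContDiffAt ℝ ∞ (fun z => (c z).flip) y :=
  (ContinuousLinearMap.flipₗᵢ ℝ R4 R4 G).contDiff.contDiffAt.comp y hc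

theorem Rp.inv_cd (r : Rp g h D) (hy : y ∈ D) : ContDiffAt ℝ ∞ (fun z => (h z).inverse) y :=
  (inv_of_inj (r.nd y hy)).contDiffAt_map_inverse.comp y (r.at hy)

theorem Rp.gm_cd (r : Rp g h D) (hy : y ∈ D) {u v : R4 → R4} (hu : ContDiffAt ℝ ∞ u y)
    (hv : ContDiffAt ℝ ∞ v y) : ContDiffAt ℝ ∞ (fun z => Gm h z (u z) (v z)) y := by
  have k := at_fd (r.at hy)
  exact (r.inv_cd hy).clm_apply (((((k.clm_apply hu).clm_apply hv).add
    ((k.clm_apply hv).clm_apply hu)).sub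
      ((at_flip ((at_flip k).clm_apply hu)).clm_apply hv)).const_smul _)

theorem Rp.ric_cd (r : Rp g h D) (hy : y ∈ D) (b c : R4) :
    ContDiffAt ℝ ∞ (fun z => Ric h z b c) y := by
  have k0 := r.at hy
  have k2 := at_fd (at_fd k0)
  have c0 : ∀ a : R4, ContDiffAt ℝ ∞ (fun _ : R4 => a) y := fun _ => contDiffAt_const
  have d : ∀ (a b c : R4) {u : R4 → R4}, ContDiffAt ℝ ∞ u y →
      ContDiffAt ℝ ∞ (fun z => dC h z a b c (u z)) y := fun a b c u hu =>
    ((((((k2.clm_apply (c0 a)).clm_apply (c0 b)).clm_apply (c0 c)).clm_apply hu).add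
      ((((k2.clm_apply (c0 a)).clm_apply (c0 c)).clm_apply (c0 b)).clm_apply hu)).sub
      ((((k2.clm_apply (c0 a)).clm_apply hu).clm_apply (c0 b)).clm_apply (c0 c))).div_const _
  refine ContDiffAt.sum fun i _ => ?_
  have u := (r.inv_cd hy).clm_apply (contDiffAt_const (c := cv i))
  exact (((d _ _ _ u).sub (d _ _ _ u)).sub ((k0.clm_apply (r.gm_cd hy (c0 _) (c0 _))).clm_apply
    (r.gm_cd hy (c0 _) u))).add ((k0.clm_apply (r.gm_cd hy (c0 _) (c0 _))).clm_apply
      (r.gm_cd hy (c0 _) u))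

end Vale.Agent.P354RC
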